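import Vale.Agent.P181.SZR5.Minor
import Vale.Agent.P181.TRT.Defs

/-!
# P181 line TRT, block [TR3] (helper742): the minors of the top rows, general index types
-/

set_option autoImplicit false
set_option linter.all false

open MvPolynomial

namespace Vale.Agent.P181.TRT.H742

open Vale.Agent.P181.T4 (HW)
open Vale.Agent.P181.SZR5 (Col minor)

variable {m r : ℕ} {σ ι : Type} [Fintype ι] [DecidableEq ι]

/-- The top rows of the column `j`. -/
noncomputable def vv (hr : r ≤ m) (ε : ι ≃ Fin r) (j : σ) : ι → MvPolynomial (Fin m × σ) ℂ :=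
  fun i => X (Fin.castLE hr (ε i), j)

/-- The minor with the columns `c`. -/
noncomputable def mnr (hr : r ≤ m) (ε : ι ≃ Fin r) (c : ι → σ) : MvPolynomial (Fin m × σ) ℂ :=
  Matrix.detRowAlternating (fun x => vv hr ε (c x))

theorem mnr_eq_det (hr : r ≤ m) (ε : ι ≃ Fin r) (c : ι → σ) :
    mnr hr ε c = Matrix.det (Matrix.of fun a b : Fin r =>
      (X (Fin.castLE hr a, c (ε.symm b)) : MvPolynomial (Fin m × σ) ℂ)) := by
  rw [← Matrix.det_transpose, ← Matrix.det_submatrix_equiv_self ε]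
  show Matrix.det _ = _
  congr 1
  ext x i : 2
  simp [vv]

theorem mnr_succ {r₀ : ℕ} (hr : r₀ + 1 ≤ m) (ε : ι ≃ Fin (r₀ + 1)) (c : ι → σ) :
    mnr hr ε c = minor hr (fun b => c (ε.symm b)) := mnr_eq_det hr ε c

theorem mnr_zero (hr : 0 ≤ m) (ε : ι ≃ Fin 0) (c : ι → σ) : mnr hr ε c = 1 := by
  rw [mnr_eq_det, Matrix.det_isEmpty]

theorem mnr_HW [Fintype σ] (hr : r ≤ m) (ε : ι ≃ Fin r) (c : ι → σ) :
    mnr hr ε c ∈ HW m σ (col m r) := by
  cases r with
  | zero =>
    rw [mnr_zero]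
    have : col m 0 = 0 := by funext i; simp [col]
    rw [this]
    exact SZR5.HW_one
  | succ r₀ =>
    rw [mnr_succ]
    have : col m (r₀ + 1) = fun i : Fin m => if (i : ℕ) ≤ r₀ then 1 else 0 := by
      funext i; simp [col, Nat.lt_succ_iff]
    rw [this]
    exact SZR5.minor_HW hr _

theorem mnr_Col [DecidableEq σ] (hr : r ≤ m) (ε : ι ≃ Fin r) (c : ι → σ) :
    Col m σ (mnr hr ε c) (∑ x, Pi.single (c x) 1) := by
  cases r with
  | zero =>
    rw [mnr_zero]
    haveI : IsEmpty ι := ε.isEmpty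
    rw [Finset.univ_eq_empty, Finset.sum_empty]
    exact Col.one
  | succ r₀ =>
    rw [mnr_succ]
    have : (∑ x, Pi.single (c x) 1 : σ → ℕ) = ∑ b, Pi.single (c (ε.symm b)) 1 :=
      (Equiv.sum_comp ε.symm (fun x => (Pi.single (c x) 1 : σ → ℕ))).symm
    rw [this]
    exact SZR5.minor_col hr _

theorem mnr_ne_zero (hr : r ≤ m) (ε : ι ≃ Fin r) {c : ι → σ} (hc : Function.Injective c) :
    mnr hr ε c ≠ 0 := by
  cases r with
  | zero => rw [mnr_zero]; exact one_ne_zero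
  | succ r₀ =>
    rw [mnr_succ]
    exact SZR5.minor_ne_zero hr (hc.comp ε.symm.injective)

theorem mnr_ren (hr : r ≤ m) (ε : ι ≃ Fin r) (c : ι → σ) (e : Equiv.Perm σ) :
    ren e (mnr hr ε c) = mnr hr ε (fun x => e (c x)) := by
  rw [mnr_eq_det, mnr_eq_det, ren, AlgHom.map_det]
  congr 1
  ext a b : 2
  rw [AlgHom.mapMatrix_apply, Matrix.map_apply, Matrix.of_apply, Matrix.of_apply, rename_X]

theorem mnr_perm (hr : r ≤ m) (ε : ι ≃ Fin r) (c : ι → σ) (π : Equiv.Perm ι) :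
    mnr hr ε (fun x => c (π x)) =
      ((Equiv.Perm.sign π : ℤ) : MvPolynomial (Fin m × σ) ℂ) * mnr hr ε c :=
  Matrix.det_permute π (Matrix.of fun x => vv hr ε (c x))

theorem sum_single_inj [DecidableEq σ] {T : Type} [Fintype T] (h : T → σ)
    (hinj : Function.Injective h) (A : Finset σ) (hA : ∀ j, j ∈ A ↔ ∃ x, h x = j) (j : σ) :
    (∑ x, (Pi.single (h x) 1 : σ → ℕ) j) = if j ∈ A then 1 else 0 := by
  classical
  by_cases hj : j ∈ A
  · rw [if_pos hj]
    obtain ⟨x, rfl⟩ := (hA j).1 hj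
    rw [Finset.sum_eq_single x]
    · simp
    · intro y _ hy
      rw [Pi.single_eq_of_ne]
      intro h'
      exact hy (hinj h').symm
    · intro h'; exact absurd (Finset.mem_univ _) h'
  · rw [if_neg hj]
    refine Finset.sum_eq_zero fun x _ => ?_
    rw [Pi.single_eq_of_ne]
    rintro rfl
    exact hj ((hA _).2 ⟨x, rfl⟩)

end Vale.Agent.P181.TRT.H742
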