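import Vale.Agent.P181.TRT.H742.Expand
import Vale.Agent.P181.TRT.H742.Mnr

/-!
# P181 line TRT, block [TR3] (helper742): a block of two columns
-/

set_option autoImplicit false
set_option linter.all false

open MvPolynomial

namespace Vale.Agent.P181.TRT.H742

open Vale.Agent.P181.T4 (HW)
open Vale.Agent.P181.SZR5 (Col minor)
open Matrix

/-- An injective family of `s` places misses `s` of the `2 s` places. -/
theorem exists_compl {s : ℕ} (f : Fin s → Fin s ⊕ Fin s) (hf : Function.Injective f) :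
    ∃ g : Fin s → Fin s ⊕ Fin s, Function.Injective (Sum.elim f g) := by
  classical
  have h1 : Fintype.card {x // x ∉ Set.range f} = s := by
    rw [Fintype.card_subtype_compl]
    have h2 : Fintype.card {x // x ∈ Set.range f} = s := by
      have := Set.card_range_of_injective hf
      rw [Fintype.card_fin] at this
      exact (Fintype.card_congr (Equiv.refl _)).trans this
    rw [h2, Fintype.card_sum, Fintype.card_fin]
    omega
  let e : Fin s ≃ {x // x ∉ Set.range f} := (Fintype.equivFinOfCardEq h1).symm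
  refine ⟨fun x => (e x).1, Function.Injective.sumElim hf
    (Subtype.val_injective.comp e.injective) ?_⟩
  intro a b hab
  exact (e b).2 ⟨a, hab⟩

theorem exists_enum {σ : Type} (A : Finset σ) {T : Type} [Fintype T]
    (h : Fintype.card T = A.card) :
    ∃ a : T → σ, Function.Injective a ∧ ∀ j, j ∈ A ↔ ∃ x, a x = j := by
  classical
  have h1 : Fintype.card T = Fintype.card A := by rw [h, Fintype.card_coe]
  let e : T ≃ A := Fintype.equivOfCardEq h1
  refine ⟨fun x => (e x).1, Subtype.val_injective.comp e.injective, fun j => ⟨fun hj => ?_, ?_⟩⟩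
  · exact ⟨e.symm ⟨j, hj⟩, by simp⟩
  · rintro ⟨x, rfl⟩
    exact (e x).2

theorem mnr_dd {m r : ℕ} {σ S Q : Type} [Fintype S] [DecidableEq S] [Fintype Q] [DecidableEq Q]
    (hr : r ≤ m) (ε : (S ⊕ S) ⊕ Q ≃ Fin r) (a b : S → σ) (c : Q → σ) :
    mnr hr ε (Sum.elim (Sum.elim a b) c) =
      dd (fun l => vv hr ε (a l)) (fun l => vv hr ε (b l)) (fun q => vv hr ε (c q)) := by
  unfold mnr dd
  congr 1
  funext x
  rcases x with (x | x) | x <;> rfl

theorem blockT : BlockT := by
  classical
  intro m s r r' σ _ k J I B P P' hJ hI hB hP hP' hr hr' hJI hJP hIP hBP hBP' hkB hkP hkP'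
  obtain ⟨jj, hjj, hjJ⟩ := exists_enum J (T := Fin s) (by rw [Fintype.card_fin, hJ])
  obtain ⟨ii, hii, hiI⟩ := exists_enum I (T := Fin s) (by rw [Fintype.card_fin, hI])
  obtain ⟨bb, hbb, hbB⟩ := exists_enum B (T := Fin s ⊕ Fin s)
    (by rw [Fintype.card_sum, Fintype.card_fin, hB]; ring)
  have hcard : Fintype.card ((Fin s ⊕ Fin s) ⊕ P) = Fintype.card (Fin r) := by
    rw [Fintype.card_sum, Fintype.card_sum, Fintype.card_fin, Fintype.card_fin, Fintype.card_coe]
    omega
  have hcard' : Fintype.card (Fin s ⊕ P') = Fintype.card (Fin r') := by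
    rw [Fintype.card_sum, Fintype.card_fin, Fintype.card_fin, Fintype.card_coe]
    omega
  let ε : (Fin s ⊕ Fin s) ⊕ P ≃ Fin r := Fintype.equivOfCardEq hcard
  let ε' : Fin s ⊕ P' ≃ Fin r' := Fintype.equivOfCardEq hcard'
  let Inj := {f : Fin s → Fin s ⊕ Fin s // Function.Injective f}
  have hex : ∀ f : Inj, ∃ g : Fin s → Fin s ⊕ Fin s, Function.Injective (Sum.elim f.1 g) :=
    fun f => exists_compl f.1 f.2
  choose gg hgg using hex
  -- the second column of the block
  let D : Inj → MvPolynomial (Fin m × σ) ℂ := fun f =>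
    mnr hr' ε' (Sum.elim (fun l => bb (gg f l)) (fun p : P' => (p : σ)))
  let U : (Fin s → σ) → (Fin s → σ) → MvPolynomial (Fin m × σ) ℂ := fun a b =>
    mnr hr ε (Sum.elim (Sum.elim a b) (fun p : P => (p : σ)))
  let M : Matrix ((Fin s ⊕ Fin s) ⊕ P) ((Fin s ⊕ Fin s) ⊕ P) (MvPolynomial (Fin m × σ) ℂ) :=
    Matrix.of (Sum.elim (fun x => vv hr ε (bb x)) (fun p : P => vv hr ε (p : σ)))
  let Zp : Inj → MvPolynomial (Fin m × σ) ℂ := fun f =>
    ∏ l, (vv hr ε (ii l) ᵥ* adjugate M) (Sum.inl (f.1 l))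
  let v : Inj → MvPolynomial (Fin m × σ) ℂ := fun f => Zp f * ∏ f' ∈ Finset.univ.erase f, D f'
  have key : ∀ w : Fin s → σ, ∑ f : Inj, v f * (U w (fun l => bb (f.1 l)) * D f) =
      (∏ f, D f) * (M.det ^ s * U w ii) := by
    intro w
    have h1 := expand (fun x => vv hr ε (bb x)) (fun p : P => vv hr ε (p : σ))
      (fun l => vv hr ε (w l)) (fun l => vv hr ε (ii l))
    rw [Fintype.card_fin] at h1
    have h2 : U w ii = dd (fun l => vv hr ε (w l)) (fun l => vv hr ε (ii l))
        (fun p : P => vv hr ε (p : σ)) := mnr_dd hr ε w ii _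
    rw [h2]
    show _ = (∏ f, D f) * ((Matrix.of (Sum.elim (fun x => vv hr ε (bb x))
      (fun p : P => vv hr ε (p : σ)))).det ^ s * _)
    rw [← h1, Finset.mul_sum]
    refine Finset.sum_congr rfl fun f _ => ?_
    have h3 : U w (fun l => bb (f.1 l)) = dd (fun l => vv hr ε (w l))
        (fun l => vv hr ε (bb (f.1 l))) (fun p : P => vv hr ε (p : σ)) := mnr_dd hr ε w _ _
    have h4 : ∏ f', D f' = D f * ∏ f' ∈ Finset.univ.erase f, D f' :=
      (Finset.mul_prod_erase Finset.univ D (Finset.mem_univ f)).symm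
    rw [h3, h4]
    show (Zp f * ∏ f' ∈ Finset.univ.erase f, D f') * (_ * D f) =
      D f * (∏ f' ∈ Finset.univ.erase f, D f') * (Zp f * _)
    ring
  have hval : Function.Injective (fun p : P => (p : σ)) := Subtype.val_injective
  have hval' : Function.Injective (fun p : P' => (p : σ)) := Subtype.val_injective
  refine ⟨Inj, inferInstance, fun f => U jj (fun l => bb (f.1 l)) * D f, v, ?_, ?_, ?_⟩
  · intro f
    refine ⟨SZR5.HW_mul (mnr_HW hr ε _) (mnr_HW hr' ε' _), ?_⟩
    have h1 : Col m σ (U jj (fun l => bb (f.1 l)) * D f) _ :=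
      Col.mul (mnr_Col hr ε _) (mnr_Col hr' ε' _)
    intro v hv j
    rw [h1 v hv j]
    simp only [Pi.add_apply, Finset.sum_apply, Fintype.sum_sum_type, Sum.elim_inl, Sum.elim_inr]
    rw [sum_single_inj jj hjj J hjJ j,
      sum_single_inj (fun p : P => (p : σ)) hval P (fun j => ⟨fun h => ⟨⟨j, h⟩, rfl⟩, by
        rintro ⟨x, rfl⟩; exact x.2⟩) j,
      sum_single_inj (fun p : P' => (p : σ)) hval' P' (fun j => ⟨fun h => ⟨⟨j, h⟩, rfl⟩, by
        rintro ⟨x, rfl⟩; exact x.2⟩) j]
    have h2 : (∑ x, (Pi.single (bb (f.1 x)) 1 : σ → ℕ) j) +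
        (∑ x, (Pi.single (bb (gg f x)) 1 : σ → ℕ) j) = if j ∈ B then 1 else 0 := by
      have hbij : Function.Bijective (Sum.elim f.1 (gg f)) :=
        Finite.injective_iff_bijective.1 (hgg f)
      have h3 := sum_single_inj (fun y => bb (Sum.elim f.1 (gg f) y)) (hbb.comp (hgg f)) B
        (fun j => by
          rw [hbB j]
          constructor
          · rintro ⟨x, rfl⟩
            obtain ⟨y, rfl⟩ := hbij.2 x
            exact ⟨y, rfl⟩
          · rintro ⟨y, rfl⟩
            exact ⟨_, rfl⟩) j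
      rw [← h3, Fintype.sum_sum_type]
      rfl
    rw [← h2]
    ring
  · rintro e he ⟨j₀, hj₀, hj₀I⟩
    have heb : ∀ y, e (bb y) = bb y := fun y =>
      hkB (bb y) ((hbB _).2 ⟨y, rfl⟩) _ (he _)
    have heP : ∀ x, e x ∈ P ↔ x ∈ P := fun x =>
      ⟨fun h => hkP _ h x (he x).symm, fun h => hkP _ h _ (he x)⟩
    have heP' : ∀ x, e x ∈ P' ↔ x ∈ P' := fun x =>
      ⟨fun h => hkP' _ h x (he x).symm, fun h => hkP' _ h _ (he x)⟩
    let π : Equiv.Perm ((Fin s ⊕ Fin s) ⊕ P) :=
      Equiv.sumCongr (Equiv.refl _) (Equiv.Perm.subtypePerm e heP)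
    let π' : Equiv.Perm (Fin s ⊕ P') :=
      Equiv.sumCongr (Equiv.refl _) (Equiv.Perm.subtypePerm e heP')
    have h1 : ∀ f : Inj, ren e (U jj (fun l => bb (f.1 l))) =
        ((Equiv.Perm.sign π : ℤ) : MvPolynomial (Fin m × σ) ℂ) *
          U (fun l => e (jj l)) (fun l => bb (f.1 l)) := by
      intro f
      show ren e (mnr hr ε _) = _ * mnr hr ε _
      rw [mnr_ren, ← mnr_perm]
      congr 1
      funext x
      rcases x with (x | x) | x
      · rfl
      · exact heb _
      · rfl
    have h2 : ∀ f : Inj, ren e (D f) =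
        ((Equiv.Perm.sign π' : ℤ) : MvPolynomial (Fin m × σ) ℂ) * D f := by
      intro f
      show ren e (mnr hr' ε' _) = _ * mnr hr' ε' _
      rw [mnr_ren, ← mnr_perm]
      congr 1
      funext x
      rcases x with x | x
      · exact heb _
      · rfl
    have h3 : ∀ f g : MvPolynomial (Fin m × σ) ℂ, ren e (f * g) = ren e f * ren e g :=
      fun f g => map_mul _ f g
    have h4 : U (fun l => e (jj l)) ii = 0 := by
      obtain ⟨l, rfl⟩ := (hjJ _).1 hj₀
      obtain ⟨l', hl'⟩ := (hiI _).1 hj₀I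
      show mnr hr ε _ = 0
      rw [mnr_dd]
      refine dd_eq_zero_of_eq _ _ _ (Sum.inl (Sum.inl l)) (Sum.inl (Sum.inr l')) (by simp) ?_
      show vv hr ε (e (jj l)) = vv hr ε (ii l')
      rw [hl']
    have h5 := key (fun l => e (jj l))
    rw [h4, mul_zero, mul_zero] at h5
    calc ∑ f : Inj, v f * ren e (U jj (fun l => bb (f.1 l)) * D f)
        = (((Equiv.Perm.sign π : ℤ) : MvPolynomial (Fin m × σ) ℂ) *
            ((Equiv.Perm.sign π' : ℤ) : MvPolynomial (Fin m × σ) ℂ)) *
          ∑ f : Inj, v f * (U (fun l => e (jj l)) (fun l => bb (f.1 l)) * D f) := by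
          rw [Finset.mul_sum]
          refine Finset.sum_congr rfl fun f _ => ?_
          rw [h3, h1, h2]
          ring
      _ = 0 := by rw [h5, mul_zero]
  · have h1 := key jj
    show ∑ f : Inj, v f * (U jj (fun l => bb (f.1 l)) * D f) ≠ 0
    rw [h1]
    refine mul_ne_zero ?_ (mul_ne_zero (pow_ne_zero _ ?_) ?_)
    · rw [Finset.prod_ne_zero_iff]
      intro f _
      refine mnr_ne_zero hr' ε' (Function.Injective.sumElim ?_ hval' ?_)
      · intro x y hxy
        have := hgg f (a₁ := Sum.inr x) (a₂ := Sum.inr y) (by simpa using hbb hxy)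
        simpa using this
      · intro x p hxp
        exact Finset.disjoint_left.1 hBP' ((hbB _).2 ⟨_, rfl⟩)
          (by have : bb (gg f x) = (p : σ) := hxp
              rw [this]; exact p.2)
    · have h2 : M.det = mnr hr ε (Sum.elim bb (fun p : P => (p : σ))) := by
        show Matrix.det _ = Matrix.det _
        congr 1
        ext x i : 2
        rcases x with x | x <;> rfl
      rw [h2]
      refine mnr_ne_zero hr ε (Function.Injective.sumElim hbb hval ?_)
      intro x p hxp
      exact Finset.disjoint_left.1 hBP ((hbB _).2 ⟨x, rfl⟩)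
        (by have : bb x = (p : σ) := hxp
            rw [this]; exact p.2)
    · refine mnr_ne_zero hr ε (Function.Injective.sumElim
        (Function.Injective.sumElim hjj hii ?_) hval ?_)
      · intro x y hxy
        exact Finset.disjoint_left.1 hJI ((hjJ _).2 ⟨x, rfl⟩)
          (by rw [hxy]; exact (hiI _).2 ⟨y, rfl⟩)
      · rintro (x | x) p hxp
        · exact Finset.disjoint_left.1 hJP ((hjJ _).2 ⟨x, rfl⟩)
            (by have : jj x = (p : σ) := hxp
                rw [this]; exact p.2)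
        · exact Finset.disjoint_left.1 hIP ((hiI _).2 ⟨x, rfl⟩)
            (by have : ii x = (p : σ) := hxp
                rw [this]; exact p.2)

end Vale.Agent.P181.TRT.H742
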