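import Mathlib

/-!
# P181 line TRT, block [TR3] (helper742): the expansion of a block of columns
-/

set_option autoImplicit false
set_option linter.all false

namespace Vale.Agent.P181.TRT.H742

open Matrix

theorem elim_upd {A B C' T : Type*} [DecidableEq A] [DecidableEq B] [DecidableEq C']
    (J : A → T) (V : B → T) (P : C' → T)
    (l : B) (z : T) : Sum.elim (Sum.elim J (Function.update V l z)) P =
      Function.update (Sum.elim (Sum.elim J V) P) (Sum.inl (Sum.inr l)) z := by
  rw [Sum.update_elim_inl, Sum.update_elim_inr]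

variable {R S Q : Type} [CommRing R] [Fintype S] [iS : DecidableEq S] [Fintype Q] [DecidableEq Q]

/-- The determinant with the rows `J`, `V`, `P`. -/
def dd (J V : S → ((S ⊕ S) ⊕ Q) → R) (P : Q → ((S ⊕ S) ⊕ Q) → R) : R :=
  Matrix.detRowAlternating (Sum.elim (Sum.elim J V) P)

/-- Multilinear in `V`. -/
def ddL (J : S → ((S ⊕ S) ⊕ Q) → R) (P : Q → ((S ⊕ S) ⊕ Q) → R) :
    MultilinearMap R (fun _ : S => ((S ⊕ S) ⊕ Q) → R) R where
  toFun V := dd J V P
  map_update_add' := by
    intro inst V l x y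
    obtain rfl : inst = iS := Subsingleton.elim _ _
    simp only [dd, elim_upd]
    exact AlternatingMap.map_update_add _ _ _ _ _
  map_update_smul' := by
    intro inst V l c x
    obtain rfl : inst = iS := Subsingleton.elim _ _
    simp only [dd, elim_upd]
    exact AlternatingMap.map_update_smul _ _ _ _ _

theorem ddL_apply (J V : S → ((S ⊕ S) ⊕ Q) → R) (P : Q → ((S ⊕ S) ⊕ Q) → R) :
    ddL J P V = dd J V P := rfl

theorem dd_eq_zero_of_eq (J V : S → ((S ⊕ S) ⊕ Q) → R) (P : Q → ((S ⊕ S) ⊕ Q) → R)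
    (x y : (S ⊕ S) ⊕ Q) (hxy : x ≠ y)
    (h : Sum.elim (Sum.elim J V) P x = Sum.elim (Sum.elim J V) P y) : dd J V P = 0 :=
  AlternatingMap.map_eq_zero_of_eq _ _ h hxy

/-- The expansion. -/
theorem expand (β : (S ⊕ S) → ((S ⊕ S) ⊕ Q) → R) (P : Q → ((S ⊕ S) ⊕ Q) → R)
    (J V : S → ((S ⊕ S) ⊕ Q) → R) [Fintype {f : S → S ⊕ S // Function.Injective f}] :
    ∑ f : {f : S → S ⊕ S // Function.Injective f},
      (∏ l, (V l ᵥ* adjugate (Matrix.of (Sum.elim β P))) (Sum.inl (f.1 l))) *
        dd J (fun l => β (f.1 l)) P =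
      Matrix.det (Matrix.of (Sum.elim β P)) ^ Fintype.card S * dd J V P := by
  classical
  set M : Matrix ((S ⊕ S) ⊕ Q) ((S ⊕ S) ⊕ Q) R := Matrix.of (Sum.elim β P) with hM
  set Z : S → ((S ⊕ S) ⊕ Q) → R := fun l => V l ᵥ* adjugate M with hZ
  have h1 : ∀ l, M.det • V l = ∑ x, Z l x • Sum.elim β P x := by
    intro l
    have h2 : (V l ᵥ* adjugate M) ᵥ* M = M.det • V l := by
      rw [Matrix.vecMul_vecMul, Matrix.adjugate_mul, Matrix.vecMul_smul, Matrix.vecMul_one]
    rw [← h2]
    exact Matrix.vecMul_eq_sum _ _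
  have h3 : Matrix.det M ^ Fintype.card S * dd J V P =
      ddL J P (fun l => M.det • V l) := by
    rw [MultilinearMap.map_smul_univ, ddL_apply, Finset.prod_const, Finset.card_univ, smul_eq_mul]
  rw [h3]
  simp only [h1]
  rw [MultilinearMap.map_sum]
  have h4 : ∀ F : S → (S ⊕ S) ⊕ Q, ddL J P (fun l => Z l (F l) • Sum.elim β P (F l)) =
      (∏ l, Z l (F l)) * dd J (fun l => Sum.elim β P (F l)) P := by
    intro F
    rw [MultilinearMap.map_smul_univ]
    rfl
  rw [Finset.sum_congr rfl fun F _ => h4 F]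
  refine Finset.sum_of_injOn (fun f => fun l => Sum.inl (f.1 l)) ?_ ?_ ?_ ?_
  · intro f _ g _ hfg
    apply Subtype.ext
    funext l
    exact Sum.inl_injective (congrFun hfg l)
  · intro f _
    simp
  · intro F _ hF
    apply mul_eq_zero_of_right
    by_cases hq : ∃ l q, F l = Sum.inr q
    · obtain ⟨l, q, hl⟩ := hq
      refine dd_eq_zero_of_eq _ _ _ (Sum.inl (Sum.inr l)) (Sum.inr q) (by simp) ?_
      show Sum.elim β P (F l) = P q
      rw [hl]; rfl
    · push Not at hq
      have h5 : ∀ l, ∃ x, F l = Sum.inl x := by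
        intro l
        rcases hFl : F l with x | x
        · exact ⟨x, rfl⟩
        · exact absurd hFl (hq l x)
      choose f hf using h5
      have h6 : ¬ Function.Injective f := by
        intro hinj
        apply hF
        refine ⟨⟨f, hinj⟩, by simp, ?_⟩
        funext l
        exact (hf l).symm
      rw [Function.Injective] at h6
      push Not at h6
      obtain ⟨l, l', h7, h8⟩ := h6
      refine dd_eq_zero_of_eq _ _ _ (Sum.inl (Sum.inr l)) (Sum.inl (Sum.inr l')) (by simpa using h8) ?_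
      show Sum.elim β P (F l) = Sum.elim β P (F l')
      rw [hf l, hf l', h7]
  · intro f _
    rfl

end Vale.Agent.P181.TRT.H742
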